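import Vale.Agent.P253.R2.H445.VF.Gen

open scoped Manifold ContDiff Bundle Topology
open Bundle Set Filter Vale.Agent.P253.Mfd Vale.Agent.P253.R2

namespace Vale.Agent.Results.P253.SemigroupUniformization

/-- Let `M` be a complete connected noncompact Kähler manifold of nonnegative bisectional
curvature. (1) Every tame holomorphic vector field on `M` (forward complete, or with slowly
shrinking flow radius, or of growth `r ^ (1 + o(1))`) generates a unique holomorphic action of `ℂ`.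
(2) Every continuous one-parameter semigroup of holomorphic self-maps of `M` extends to a unique
holomorphic action of `ℂ`. (3) If a tame vector field `X` has a periodic source `p` with linear part
`L`, and the curvature is positive at `p` or `p` is in the closure of every complex orbit, then there
is a biholomorphism `F` from `M` to `ℂ^n` with `F p = 0` which maps `X` to the linear vector field
`L`. (4) The same for a semigroup with `d(φ_t)_p = exp (c t)`, `c ≠ 0` complex, if the curvature is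
positive at `p` or `p` is in the closure of every forward orbit. (5) `M` is biholomorphic to `ℂ^n` if
and only if it has a continuous semigroup of holomorphic self-maps `φ_t` which fixes a point `p` in
the closure of every forward orbit, with `d(φ_t)_p → 0`. (6) `M` is biholomorphic to `ℂ^n` if and
only if it has a tame holomorphic vector field with a contracting zero in the closure of every
complex orbit; if the curvature is positive, if and only if it has a tame holomorphic vector field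
with a periodic source.
(7) Let `q` be a local biholomorphism from `M` to a complex manifold `N` with a holomorphic action
`σ` of `ℂ`. If the forward orbits of `σ` lift to `M`, then `σ` lifts to `M`; if `q` is injective and
`σ_t (q M) ⊆ q M` for `t ≥ 0`, then `σ_ζ (q M) = q M` for all complex `ζ`, and `q M = N` if all
forward orbits of `σ` meet `q M`. (8) A Riemann domain `q : M → ℂ^n` which is starlike, or a
half-tube, or invariant under a contracting linear semigroup, is a biholomorphism. -/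
theorem result {E : Type*} [NormedAddCommGroup E] [NormedSpace ℂ E] [FiniteDimensional ℂ E]
    {M : Type*} [MetricSpace M] [ChartedSpace E M]
    [IsManifold 𝓘(ℂ, E) 1 M] [IsManifold 𝓘(ℝ, E) ∞ M]
    [RiemannianBundle (fun x : M => TangentSpace 𝓘(ℝ, E) x)]
    [IsContMDiffRiemannianBundle 𝓘(ℝ, E) ∞ E (fun x : M => TangentSpace 𝓘(ℝ, E) x)]
    [IsRiemannianManifold 𝓘(ℝ, E) M]
    [CompleteSpace M] [NoncompactSpace M] [ConnectedSpace M] (hK : IsKahler E M)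
    (hnn : ∀ x : M, NonnegBisectionalAt E x) :
    (∀ X : (x : M) → TangentSpace 𝓘(ℂ, E) x, IsHolVectorField E X → IsTame E X →
      ∃! ψ : ℂ → M → M, IsHolCFlow E ψ ∧ ∀ x, IsOrbitOn E X (fun ζ => ψ ζ x) univ) ∧
    (∀ φ : ℝ → M → M, IsHolSemigroup E φ →
      ∃! ψ : ℂ → M → M, IsHolCFlow E ψ ∧ ∀ t : ℝ, 0 ≤ t → ∀ x, ψ t x = φ t x) ∧
    (∀ (X : (x : M) → TangentSpace 𝓘(ℂ, E) x) (p : M) (c : ℂ) (L : E →L[ℂ] E),
      IsHolVectorField E X → IsTame E X → IsPeriodicSource E X p c L →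
      (PosBisectionalAt E p ∨ ∀ γ : ℂ → M, IsOrbitOn E X γ univ → p ∈ closure (range γ)) →
      ∃ F : M ≃ₘ^1⟮𝓘(ℂ, E), 𝓘(ℂ, E)⟯ E, F p = 0 ∧
        ∀ x : M, (mfderiv 𝓘(ℂ, E) 𝓘(ℂ, E) F x : E → E) (X x) = L (F x)) ∧
    (∀ (φ : ℝ → M → M) (p : M) (c : ℂ), IsHolSemigroup E φ → c ≠ 0 →
      (∀ t : ℝ, 0 ≤ t → φ t p = p ∧ ∀ v : E,
        (mfderiv 𝓘(ℂ, E) 𝓘(ℂ, E) (φ t) p : E → E) v = Complex.exp (c * t) • v) →
      (PosBisectionalAt E p ∨ ∀ x, p ∈ closure ((fun t => φ t x) '' Ici 0)) →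
      ∃ F : M ≃ₘ^1⟮𝓘(ℂ, E), 𝓘(ℂ, E)⟯ E, F p = 0 ∧
        ∀ t : ℝ, 0 ≤ t → ∀ x : M, F (φ t x) = Complex.exp (c * t) • F x) ∧
    (Nonempty (M ≃ₘ^1⟮𝓘(ℂ, E), 𝓘(ℂ, E)⟯ E) ↔
      ∃ (φ : ℝ → M → M) (p : M), IsHolSemigroup E φ ∧ (∀ t : ℝ, 0 ≤ t → φ t p = p) ∧
        (∀ v : E, Tendsto (fun t : ℝ => (mfderiv 𝓘(ℂ, E) 𝓘(ℂ, E) (φ t) p : E → E) v)
          atTop (𝓝 0)) ∧
        ∀ x, p ∈ closure ((fun t => φ t x) '' Ici 0)) ∧
    (Nonempty (M ≃ₘ^1⟮𝓘(ℂ, E), 𝓘(ℂ, E)⟯ E) ↔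
      ∃ (X : (x : M) → TangentSpace 𝓘(ℂ, E) x) (p : M),
        IsHolVectorField E X ∧ IsTame E X ∧ IsContractingZero E X p ∧
          ∀ γ : ℂ → M, IsOrbitOn E X γ univ → p ∈ closure (range γ)) ∧
    ((∀ x : M, PosBisectionalAt E x) →
      (Nonempty (M ≃ₘ^1⟮𝓘(ℂ, E), 𝓘(ℂ, E)⟯ E) ↔
        ∃ (X : (x : M) → TangentSpace 𝓘(ℂ, E) x) (p : M) (c : ℂ) (L : E →L[ℂ] E),
          IsHolVectorField E X ∧ IsTame E X ∧ IsPeriodicSource E X p c L)) ∧
    (∀ (N : Type*) [TopologicalSpace N] [T2Space N] [ChartedSpace E N] [IsManifold 𝓘(ℂ, E) 1 N]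
      (q : M → N) (σ : ℂ → N → N), IsLocalDiffeomorph 𝓘(ℂ, E) 𝓘(ℂ, E) 1 q → IsHolCFlow E σ →
      ((∀ x, ∃ γ : ℝ → M, γ 0 = x ∧ ContinuousOn γ (Ici 0) ∧
          ∀ t : ℝ, 0 ≤ t → q (γ t) = σ t (q x)) →
        ∃ ψ : ℂ → M → M, IsHolCFlow E ψ ∧ ∀ ζ x, q (ψ ζ x) = σ ζ (q x)) ∧
      (Function.Injective q → (∀ (t : ℝ) x, 0 ≤ t → σ t (q x) ∈ range q) →
        (∀ ζ, σ ζ '' range q = range q) ∧
        ((∀ y, ∃ t : ℝ, 0 ≤ t ∧ σ t y ∈ range q) →
          ∃ F : M ≃ₘ^1⟮𝓘(ℂ, E), 𝓘(ℂ, E)⟯ N, ∀ x, F x = q x))) ∧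
    ∀ q : M → E, IsLocalDiffeomorph 𝓘(ℂ, E) 𝓘(ℂ, E) 1 q →
      ((∃ (A : E →L[ℂ] E) (p : M), q p = 0 ∧
          (∀ z, Tendsto (fun t : ℝ => NormedSpace.exp (-((t : ℂ) • A)) z) atTop (𝓝 0)) ∧
          ∀ x, ∃ γ : ℝ → M, γ 0 = x ∧ ContinuousOn γ (Ici 0) ∧
            ∀ t : ℝ, 0 ≤ t → q (γ t) = NormedSpace.exp (-((t : ℂ) • A)) (q x)) ∨
        (∃ p : M, ∀ x, ∃ γ : ℝ → M, γ 0 = x ∧ ContinuousOn γ (Ico 0 1) ∧
          ∀ s ∈ Ico (0 : ℝ) 1, q (γ s) = q x + (s : ℂ) • (q p - q x)) ∨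
        (∃ G : Set E, Submodule.span ℂ G = ⊤ ∧
          ∀ v ∈ G, ∀ x, ∃ γ : ℝ → M, γ 0 = x ∧ ContinuousOn γ (Ici 0) ∧
            ∀ t : ℝ, 0 ≤ t → q (γ t) = q x + (t : ℂ) • v)) →
      ∃ F : M ≃ₘ^1⟮𝓘(ℂ, E), 𝓘(ℂ, E)⟯ E, ∀ x, F x = q x := by
  obtain ⟨h7, h8⟩ := H156.domains hK hnn
  exact ⟨fun X hX h => H445.tame_existsUnique hK hnn hX h,
    fun φ h => H445.existsUnique_semigroup hK hnn h,
    fun X p c L hX h hs hcase => H445.tame_unif hK hnn hX h hs hcase,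
    fun φ p c h hc hp hcase => H445.semigroup_unif hK hnn h hc hp hcase,
    H156.RR.iff_contracting hK hnn,
    H445.iff_contracting_field hK hnn,
    fun hpos => H445.iff_vectorField hK hnn hpos,
    h7, h8⟩

end Vale.Agent.Results.P253.SemigroupUniformization
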